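import Vale.Agent.H20.OTDefs3

/-!
# P074 in dimension zero: every exponent is admissible (the space is a point)
-/

namespace Vale.Agent.H77

open MeasureTheory Vale.Agent.H20

theorem admissibleExponent_dim_zero
    (W : Measure (EuclideanSpace ℝ (Fin 0)) → Measure (EuclideanSpace ℝ (Fin 0)) → ENNReal)
    (α : ℝ) : AdmissibleExponent 0 W α := by
  intro K Y _ _ _ _
  refine ⟨0, fun μ ν T S _ _ _ _ => ?_⟩
  have h : (fun x => T x - S x) = fun _ => (0 : EuclideanSpace ℝ (Fin 0)) :=
    funext fun x => Subsingleton.elim _ _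
  rw [h]
  simp

end Vale.Agent.H77
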